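import Vale.Agent.P080C1.Iterate.Flat

/-!
First-order expansions with a power rate from the iteration of flatness, and the resulting Hölder
continuity of the gradient.
-/

noncomputable section

open Metric Filter Topology
open scoped RealInnerProductSpace

namespace Vale.Agent.P080C1.Iterate

/-- `p` is the linear part of `u` at `y` with rate `K (|z - y| / ρ)^β`. -/
def Expan (u : E3 → ℝ) (y : E3) (p : E3) (K β ρ : ℝ) : Prop :=
  ∀ z : E3, ‖z - y‖ ≤ ρ → |u z - u y - ⟪p, z - y⟫| ≤ K * ‖z - y‖ * (‖z - y‖ / ρ) ^ β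

theorem Expan.hasFDerivAt {u : E3 → ℝ} {y p : E3} {K β ρ : ℝ} (h : Expan u y p K β ρ)
    (hβ : 0 < β) (hρ : 0 < ρ) : HasFDerivAt u (innerSL ℝ p) y := by
  rw [hasFDerivAt_iff_isLittleO, Asymptotics.isLittleO_iff]
  intro c hc
  have h0 : Tendsto (fun z => K * (‖z - y‖ / ρ) ^ β) (𝓝 y) (𝓝 0) := by
    have h1 : Tendsto (fun z => ‖z - y‖ / ρ) (𝓝 y) (𝓝 0) := by
      simpa using ((continuous_id.sub (continuous_const (y := y))).norm.div_const ρ).tendsto y
    have h2 := ((Real.continuous_rpow_const hβ.le).tendsto 0).comp h1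
    rw [Real.zero_rpow hβ.ne'] at h2
    simpa using h2.const_mul K
  filter_upwards [h0.eventually (eventually_le_nhds hc), closedBall_mem_nhds y hρ] with z hz hzm
  rw [Real.norm_eq_abs, innerSL_apply_apply]
  rw [mem_closedBall, dist_eq_norm] at hzm
  refine (h z hzm).trans ?_
  rw [mul_right_comm]
  exact mul_le_mul_of_nonneg_right hz (norm_nonneg _)

theorem Expan.dist_le {u : E3 → ℝ} {y y' p p' : E3} {K β ρ : ℝ} (h : Expan u y p K β ρ)
    (h' : Expan u y' p' K β ρ) (hK : 0 ≤ K) (hβ : 0 < β) (hρ : 0 < ρ)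
    (hd : ‖y' - y‖ ≤ ρ / 2) :
    ‖p' - p‖ ≤ 4 * 2 ^ β * K * (‖y' - y‖ / ρ) ^ β := by
  rcases eq_or_lt_of_le (norm_nonneg (p' - p)) with h0 | h0
  · rw [← h0]; positivity
  set d : ℝ := ‖y' - y‖ with hdd
  rcases eq_or_lt_of_le (show (0:ℝ) ≤ d from norm_nonneg _) with hd0 | hd0
  · have e : y' = y := sub_eq_zero.1 (norm_eq_zero.1 (hdd ▸ hd0.symm))
    subst e
    have e1 := (h.hasFDerivAt hβ hρ).unique (h'.hasFDerivAt hβ hρ)
    have e2 : p = p' := by
      refine ext_inner_right ℝ fun z => ?_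
      simpa using congrArg (fun φ => φ z) e1
    simp [e2] at h0
  set n : E3 := ‖p' - p‖⁻¹ • (p' - p) with hn
  have hn1 : ‖n‖ = 1 := by
    rw [hn, norm_smul, norm_inv, norm_norm, inv_mul_cancel₀ h0.ne']
  set z : E3 := y' + d • n with hz
  have hzy' : ‖z - y'‖ = d := by
    rw [hz, add_sub_cancel_left, norm_smul, hn1, mul_one, Real.norm_eq_abs, abs_of_pos hd0]
  have hzy : ‖z - y‖ ≤ 2 * d := by
    have := norm_sub_le_norm_sub_add_norm_sub z y' y
    linarith
  have e1 := h z (by linarith)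
  have e2 := h' z (by linarith)
  have e3 := h y' (show ‖y' - y‖ ≤ ρ by linarith)
  have hmono : ∀ t, 0 ≤ t → t ≤ 2 * d → t * (t / ρ) ^ β ≤ 2 * d * (2 ^ β * (d / ρ) ^ β) := by
    intro t ht ht2
    rw [← Real.mul_rpow zero_le_two (by positivity), ← mul_div_assoc]
    exact mul_le_mul ht2 (Real.rpow_le_rpow (by positivity) (by gcongr) hβ.le) (by positivity)
      (by positivity)
  have hpow : (1:ℝ) ≤ 2 ^ β := Real.one_le_rpow one_le_two hβ.le
  have hb1 : |u z - u y - ⟪p, z - y⟫| ≤ 2 * d * (2 ^ β * (d / ρ) ^ β) * K :=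
    e1.trans (by
      rw [mul_assoc, mul_comm K]
      exact mul_le_mul_of_nonneg_right (hmono _ (norm_nonneg _) hzy) hK)
  have hb2 : |u z - u y' - ⟪p', z - y'⟫| ≤ d * (2 ^ β * (d / ρ) ^ β) * K :=
    e2.trans (by
      rw [hzy', mul_assoc, mul_comm K]
      refine mul_le_mul_of_nonneg_right (mul_le_mul_of_nonneg_left ?_ hd0.le) hK
      exact le_mul_of_one_le_left (by positivity) hpow)
  have hb3 : |u y' - u y - ⟪p, y' - y⟫| ≤ d * (2 ^ β * (d / ρ) ^ β) * K :=
    e3.trans (by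
      rw [← hdd, mul_assoc, mul_comm K]
      refine mul_le_mul_of_nonneg_right (mul_le_mul_of_nonneg_left ?_ hd0.le) hK
      exact le_mul_of_one_le_left (by positivity) hpow)
  have key : ⟪p' - p, z - y'⟫ = d * ‖p' - p‖ := by
    rw [hz, add_sub_cancel_left, real_inner_smul_right, hn, real_inner_smul_right,
      real_inner_self_eq_norm_sq]
    field_simp
  have hsplit : ⟪p' - p, z - y'⟫ = (u z - u y - ⟪p, z - y⟫) - (u z - u y' - ⟪p', z - y'⟫) -
      (u y' - u y - ⟪p, y' - y⟫) := by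
    simp only [inner_sub_left, inner_sub_right]
    ring
  have : d * ‖p' - p‖ ≤ d * (4 * 2 ^ β * K * (d / ρ) ^ β) := by
    rw [← key, hsplit]
    linarith [abs_le.1 hb1, abs_le.1 hb2, abs_le.1 hb3]
  exact le_of_mul_le_mul_left this hd0

theorem exists_bracket {m : ℕ → ℝ} (hlim : Tendsto m atTop (𝓝 0)) {d : ℝ} (hd0 : 0 < d)
    (hd : d ≤ m 0) : ∃ k, d ≤ m k ∧ m (k + 1) < d := by
  have hex : ∃ k, m k < d := (hlim.eventually (eventually_lt_nhds hd0)).exists
  classical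
  have h0 : Nat.find hex ≠ 0 := fun h => by
    have := Nat.find_spec hex
    rw [h] at this
    linarith
  obtain ⟨k, hk⟩ := Nat.exists_eq_succ_of_ne_zero h0
  refine ⟨k, not_lt.1 (Nat.find_min hex (by omega)), ?_⟩
  have := Nat.find_spec hex
  rwa [hk] at this

variable {L θ₀ C ε₀ : ℝ}

/-- A flat cylinder gives a first-order expansion at its centre, with uniform rate. -/
theorem Step.expansion (hS : Step L θ₀ C ε₀) {ε : ℝ} (hε : 0 < ε) (hε₀ : ε ≤ ε₀)
    (hC : C * ε ≤ 1 / 6) (hC2 : 40 * C * √ε ≤ 1 / 4) :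
    ∃ β K c : ℝ, 0 < β ∧ 0 < K ∧ 0 < c ∧ c ≤ 1 ∧
      ∀ (O : Set E3) (u : E3 → ℝ) (y q : E3) (ℓ : ℝ), IsOpen O → IsInfHarmonicOn O u →
        ‖q‖ ∈ Set.Icc (3 / 4) (5 / 4) → Flat O u L y q ℓ ε →
        ∃ p : E3, ‖p‖ ≤ 2 ∧ Expan u y p K β (c * ℓ) := by
  have hL := hS.L_pos
  have hθ := hS.θ_pos
  have hC0 := hS.C_pos
  have hθ1 := hS.θ_le
  set g : ℝ := √(3 / 5) with hg
  have hg0 : 0 < g := by positivity
  have hg1 : g < 1 := by rw [hg, Real.sqrt_lt' one_pos]; norm_num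
  set γ : ℝ := θ₀ * g with hγ
  have hγ0 : 0 < γ := by positivity
  have hγg : γ ≤ g := mul_le_of_le_one_left hg0.le (by linarith)
  have hlogg : Real.log g < 0 := Real.log_neg hg0 hg1
  have hlogγ : Real.log γ ≤ Real.log g := Real.log_le_log hγ0 hγg
  set β : ℝ := Real.log g / Real.log γ with hβ
  have hβ0 : 0 < β := div_pos_of_neg_of_neg hlogg (hlogγ.trans_lt hlogg)
  have hγβ : γ ^ β = g := by
    rw [Real.rpow_def_of_pos hγ0, hβ, mul_div_cancel₀ _ (hlogγ.trans_lt hlogg).ne,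
      Real.exp_log hg0]
  set a : ℝ := min 1 (L * √ε) with ha
  have ha0 : 0 < a := lt_min one_pos (by positivity)
  refine ⟨β, (3 * ε / (a * γ) + 12 * C * √ε) / g, a, hβ0, by positivity, ha0, min_le_left _ _,
    fun O u y q ℓ hO hu hq hflat => ?_⟩
  obtain ⟨qs, ℓs, hq0, hl0, hchain⟩ := hS.chain hO hu hε hε₀ hC hC2 hq hflat
  have hℓ : 0 < ℓ := hflat.1
  have hsqrt : ∀ k : ℕ, √((3 / 5) ^ k * ε) = g ^ k * √ε := by
    intro k
    rw [Real.sqrt_mul (by positivity), hg]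
    congr 1
    induction k with
    | zero => simp
    | succ k ih => rw [pow_succ, Real.sqrt_mul (by positivity), ih, pow_succ]
  have hg45 : g ≤ 4 / 5 := by rw [hg, Real.sqrt_le_iff]; norm_num
  have hstep : ∀ k, ‖qs k - qs (k + 1)‖ ≤ 2 * C * √ε * g ^ k := fun k => by
    rw [norm_sub_rev]
    refine (hchain k).2.2.2.1.trans (le_of_eq ?_)
    rw [hsqrt]; ring
  have hdist : ∀ k, dist (qs k) (qs (k + 1)) ≤ 2 * C * √ε * g ^ k := fun k => by
    rw [dist_eq_norm]; exact hstep k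
  obtain ⟨p, hp⟩ := cauchySeq_tendsto_of_complete (cauchySeq_of_le_geometric g _ hg1 hdist)
  have hqp : ∀ k, ‖qs k - p‖ ≤ 12 * C * √ε * g ^ k := fun k => by
    rw [← dist_eq_norm]
    refine (dist_le_of_le_geometric_of_tendsto g _ hg1 hdist hp k).trans ?_
    rw [div_le_iff₀ (by linarith)]
    have : 0 ≤ C * √ε * g ^ k := by positivity
    nlinarith
  have hℓk : ∀ k, 0 < ℓs k ∧ θ₀ ^ k * ℓ ≤ ℓs k ∧ ℓs k ≤ (1 / 2) ^ k * ℓ := by
    intro k
    refine ⟨(hchain k).1.1, ?_⟩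
    induction k with
    | zero => simp [hl0]
    | succ k ih =>
      refine ⟨?_, ?_⟩
      · calc θ₀ ^ (k + 1) * ℓ = θ₀ * (θ₀ ^ k * ℓ) := by ring
          _ ≤ θ₀ * ℓs k := mul_le_mul_of_nonneg_left ih.1 hθ.le
          _ ≤ _ := (hchain k).2.1
      · calc ℓs (k + 1) ≤ ℓs k / 2 := (hchain k).2.2.1
          _ ≤ (1 / 2) ^ k * ℓ / 2 := by linarith [ih.2]
          _ = _ := by ring
  set m : ℕ → ℝ := fun k => a * (g ^ k * ℓs k) with hm
  have hm0 : m 0 = a * ℓ := by simp [hm, hl0]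
  have hmlim : Tendsto m atTop (𝓝 0) := by
    have h1 : Tendsto (fun k : ℕ => a * ℓ * (g / 2) ^ k) atTop (𝓝 0) := by
      simpa using (tendsto_pow_atTop_nhds_zero_of_lt_one (by positivity)
        (by linarith : g / 2 < 1)).const_mul (a * ℓ)
    refine squeeze_zero (fun k => by have := (hℓk k).1; positivity) (fun k => ?_) h1
    calc m k ≤ a * (g ^ k * ((1 / 2) ^ k * ℓ)) := by
          have := (hℓk k).2.2
          simp only [hm]
          gcongr
      _ = a * ℓ * (g / 2) ^ k := by rw [div_pow, div_pow, one_pow]; ring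
  refine ⟨p, ?_, fun z hz => ?_⟩
  · have h1 := hqp 0
    simp only [pow_zero, mul_one, hq0] at h1
    linarith [hq.2, norm_le_insert q p, mul_nonneg hC0.le (Real.sqrt_nonneg ε)]
  rcases eq_or_lt_of_le (norm_nonneg (z - y)) with hd0 | hd0
  · have : z = y := sub_eq_zero.1 (norm_eq_zero.1 hd0.symm)
    subst this
    simp
  obtain ⟨k, hk1, hk2⟩ := exists_bracket hmlim hd0 (hm0 ▸ hz)
  set d : ℝ := ‖z - y‖ with hd
  have hℓk0 := (hℓk k).1
  obtain ⟨cst, hc⟩ := (hchain k).1.2.2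
  have hsub : closedBall y (m k) ⊆ cyl y (qs k) (ℓs k) (L * √((3 / 5) ^ k * ε) * ℓs k) := by
    refine closedBall_subset_cyl ?_ ?_
    · calc m k ≤ 1 * (1 * ℓs k) := by
            simp only [hm]
            exact mul_le_mul (min_le_left _ _) (mul_le_mul_of_nonneg_right
              (pow_le_one₀ hg0.le hg1.le) hℓk0.le) (by positivity) zero_le_one
        _ = ℓs k := by ring
    · calc m k ≤ L * √ε * (g ^ k * ℓs k) := by
            simp only [hm]
            exact mul_le_mul_of_nonneg_right (min_le_right _ _) (by positivity)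
        _ = _ := by rw [hsqrt]; ring
  have b1 := hc z (hsub (by rwa [mem_closedBall, dist_eq_norm]))
  have b2 := hc y (hsub (mem_closedBall_self (by linarith)))
  have hqk : ‖qs k‖ ≤ 3 / 2 := (hchain k).2.2.2.2.2
  have b3 : |u z - u y - ⟪qs k, z - y⟫| ≤ 3 * ((3 / 5) ^ k * ε * ℓs k) := by
    have hle : (3 / 5 : ℝ) ^ k * ε * ℓs k * ‖qs k‖ ≤ 3 / 2 * ((3 / 5) ^ k * ε * ℓs k) := by
      rw [mul_comm (3 / 2 : ℝ)]
      exact mul_le_mul_of_nonneg_left hqk (by positivity)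
    rw [inner_sub_right]
    rw [abs_le] at b1 b2 ⊢
    constructor <;> linarith
  have hd1 : a * γ * (g ^ k * ℓs k) ≤ d := by
    refine le_trans ?_ hk2.le
    calc a * γ * (g ^ k * ℓs k) = a * (g ^ (k + 1) * (θ₀ * ℓs k)) := by rw [hγ]; ring
      _ ≤ a * (g ^ (k + 1) * ℓs (k + 1)) :=
          mul_le_mul_of_nonneg_left (mul_le_mul_of_nonneg_left (hchain k).2.1 (by positivity))
            ha0.le
  have hgk : g ^ k * g ≤ (d / (a * ℓ)) ^ β := by
    have h1 : γ ^ (k + 1) ≤ d / (a * ℓ) := by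
      rw [le_div_iff₀ (by positivity)]
      refine le_trans ?_ hk2.le
      calc γ ^ (k + 1) * (a * ℓ) = a * (g ^ (k + 1) * (θ₀ ^ (k + 1) * ℓ)) := by
            rw [hγ, mul_pow]; ring
        _ ≤ m (k + 1) := mul_le_mul_of_nonneg_left
            (mul_le_mul_of_nonneg_left (hℓk (k + 1)).2.1 (by positivity)) ha0.le
    refine le_trans (le_of_eq ?_) (Real.rpow_le_rpow (by positivity) h1 hβ0.le)
    calc g ^ k * g = (γ ^ β) ^ (k + 1) := by rw [hγβ, pow_succ]
      _ = _ := by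
        rw [← Real.rpow_natCast, ← Real.rpow_mul hγ0.le, mul_comm, Real.rpow_mul hγ0.le,
          Real.rpow_natCast]
  have h35 : (3 / 5 : ℝ) ^ k = g ^ k * g ^ k := by
    rw [← mul_pow, hg, Real.mul_self_sqrt (by norm_num)]
  have b4 : |u z - u y - ⟪qs k, z - y⟫| ≤ 3 * ε / (a * γ) * g ^ k * d := by
    refine b3.trans ?_
    calc 3 * ((3 / 5) ^ k * ε * ℓs k)
        = 3 * ε / (a * γ) * g ^ k * (a * γ * (g ^ k * ℓs k)) := by rw [h35]; field_simp
      _ ≤ _ := mul_le_mul_of_nonneg_left hd1 (by positivity)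
  have b5 : |⟪qs k - p, z - y⟫| ≤ 12 * C * √ε * g ^ k * d :=
    (abs_real_inner_le_norm _ _).trans (mul_le_mul_of_nonneg_right (hqp k) hd0.le)
  have b6 : |u z - u y - ⟪p, z - y⟫| ≤ (3 * ε / (a * γ) + 12 * C * √ε) * g ^ k * d := by
    rw [inner_sub_left] at b5
    rw [abs_le] at b4 b5 ⊢
    constructor <;> linarith
  refine b6.trans ?_
  calc (3 * ε / (a * γ) + 12 * C * √ε) * g ^ k * d
      = (3 * ε / (a * γ) + 12 * C * √ε) / g * d * (g ^ k * g) := by field_simp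
    _ ≤ _ := mul_le_mul_of_nonneg_left hgk (by positivity)

end Vale.Agent.P080C1.Iterate
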