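import Vale.Agent.P080C1.Props
import Vale.Agent.P080C1.Transform

/-!
Iteration of the improvement of flatness: flat solutions are differentiable, with a Hölder
continuous gradient.
-/

noncomputable section

open Metric Filter Topology
open scoped RealInnerProductSpace

namespace Vale.Agent.P080C1.Iterate

theorem cyl_subset_closedBall {x q : E3} (hq : q ≠ 0) {R ρ : ℝ} (hR : 0 ≤ R) (hρ : 0 ≤ ρ) :
    cyl x q R ρ ⊆ closedBall x (R + ρ) := by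
  intro y hy
  obtain ⟨h1, h2⟩ := hy
  have hn : 0 < ‖q‖ := norm_pos_iff.2 hq
  have h3 : ⟪q, y - x⟫ ^ 2 ≤ (R * ‖q‖) ^ 2 := by
    rw [← sq_abs]; exact pow_le_pow_left₀ (abs_nonneg _) h1 2
  have h4 : (‖y - x‖ * ‖q‖) ^ 2 ≤ ((R + ρ) * ‖q‖) ^ 2 := by
    nlinarith [mul_nonneg (mul_nonneg hR hρ) (sq_nonneg ‖q‖)]
  have h5 := (sq_le_sq₀ (by positivity) (by positivity)).1 h4
  rw [mem_closedBall, dist_eq_norm]
  exact le_of_mul_le_mul_right h5 hn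

theorem closedBall_subset_cyl {x q : E3} {R ρ m : ℝ} (hR : m ≤ R) (hρ : m ≤ ρ) :
    closedBall x m ⊆ cyl x q R ρ := by
  intro y hy
  rw [mem_closedBall, dist_eq_norm] at hy
  refine ⟨(abs_real_inner_le_norm _ _).trans ?_, ?_⟩
  · rw [mul_comm R]
    exact mul_le_mul_of_nonneg_left (hy.trans hR) (norm_nonneg _)
  · have h := pow_le_pow_left₀ (norm_nonneg _) (hy.trans hρ) 2
    nlinarith [sq_nonneg ⟪q, y - x⟫, mul_le_mul_of_nonneg_right h (sq_nonneg ‖q‖)]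

/-- Flatness in a natural cylinder, relative to the slope. -/
def Flat (O : Set E3) (u : E3 → ℝ) (L : ℝ) (y q : E3) (ℓ ε : ℝ) : Prop :=
  0 < ℓ ∧ closedBall y (ℓ * (1 + L * √ε)) ⊆ O ∧
    FlatOn u (cyl y q ℓ (L * √ε * ℓ)) q (ε * ℓ * ‖q‖)

/-- The constants produced by one step of the improvement. -/
structure Step (L θ₀ C ε₀ : ℝ) : Prop where
  L_pos : 0 < L
  θ_pos : 0 < θ₀
  θ_le : θ₀ ≤ 1 / 2
  C_pos : 0 < C
  ε_pos : 0 < ε₀
  step : ∀ (u : E3 → ℝ) (ε : ℝ) (O : Set E3),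
    IsOpen O → IsInfHarmonicOn O u → 0 < ε → ε ≤ ε₀ → cyl₀ 1 (L * √ε) ⊆ O →
    FlatOn u (cyl₀ 1 (L * √ε)) (ee 2) ε →
    ∃ θ ∈ Set.Icc θ₀ (1 / 2), ∃ q : E3, ‖q‖ ∈ Set.Icc (1 - C * ε) (1 + C * ε) ∧
      dist q (ee 2) ≤ C * √ε ∧
      FlatOn u (cyl 0 q θ (2 * L * √(ε / 2) * θ)) q (ε / 2 * θ)

variable {L θ₀ C ε₀ : ℝ} {O : Set E3} {u : E3 → ℝ}

theorem Step.next (hS : Step L θ₀ C ε₀) (hO : IsOpen O) (hu : IsInfHarmonicOn O u) {y q : E3}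
    {ℓ ε : ℝ} (hq : q ≠ 0) (hε : 0 < ε) (hε₀ : ε ≤ ε₀) (hC : C * ε ≤ 1 / 6)
    (h : Flat O u L y q ℓ ε) :
    ∃ q' ℓ', Flat O u L y q' ℓ' (3 / 5 * ε) ∧ θ₀ * ℓ ≤ ℓ' ∧ ℓ' ≤ ℓ / 2 ∧
      ‖q' - q‖ ≤ ‖q‖ * (C * √ε) := by
  obtain ⟨hℓ, hsub, hflat⟩ := h
  set t : ℝ := ‖q‖ with ht
  have ht0 : 0 < t := norm_pos_iff.2 hq
  obtain ⟨A, hA⟩ := exists_rotation (q := t⁻¹ • q)
    (by rw [norm_smul, norm_inv, Real.norm_eq_abs, abs_of_pos ht0, ← ht, inv_mul_cancel₀ ht0.ne'])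
  have hAs : A.symm q = t • ee 2 := by
    rw [← A.apply_symm_apply q] at hA ⊢
    rw [A.symm_apply_apply]
    have : A (t • ee 2) = A (A.symm q) := by
      rw [map_smul, hA, smul_smul, mul_inv_cancel₀ ht0.ne', one_smul]
    exact (A.injective this).symm
  have hL := hS.L_pos
  have hpre : simMap y ℓ A ⁻¹' cyl y q ℓ (L * √ε * ℓ) = cyl₀ 1 (L * √ε) := by
    rw [preimage_cyl hℓ, hAs, cyl_smul ht0, div_self hℓ.ne', mul_div_assoc, div_self hℓ.ne',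
      mul_one]
    simp [simInv, cyl₀]
  have hcylO : cyl y q ℓ (L * √ε * ℓ) ⊆ O := by
    refine ((cyl_subset_closedBall hq hℓ.le (by positivity)).trans ?_).trans hsub
    exact closedBall_subset_closedBall (by ring_nf; rfl)
  have h1 := hflat.simFun hℓ ht0 y A (u y)
  rw [hpre, hAs, smul_smul, inv_mul_cancel₀ ht0.ne', one_smul,
    show ε * ℓ * t / (t * ℓ) = ε by field_simp] at h1
  obtain ⟨θ, hθ, p, hp1, hp2, hp3⟩ := hS.step _ ε _ (isOpen_preimage_simMap hO)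
    (hu.simFun hℓ ht0 y A (u y)) hε hε₀ (hpre ▸ Set.preimage_mono hcylO) h1
  have hθ0 : 0 < θ := hS.θ_pos.trans_le hθ.1
  have hp : 5 / 6 ≤ ‖p‖ := by linarith [hp1.1]
  have hp0 : p ≠ 0 := fun h => by norm_num [h] at hp
  refine ⟨t • A p, θ * ℓ, ⟨by positivity, ?_, ?_⟩, mul_le_mul_of_nonneg_right hθ.1 hℓ.le,
    by nlinarith [hθ.2], ?_⟩
  · refine (closedBall_subset_closedBall ?_).trans hsub
    have h35 : √(3 / 5 * ε) ≤ √ε := Real.sqrt_le_sqrt (by linarith)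
    have hθ1 : θ ≤ 1 := by linarith [hθ.2]
    have hsq := Real.sqrt_nonneg (3 / 5 * ε)
    nlinarith [mul_le_mul_of_nonneg_left h35 hL.le, mul_pos hℓ hL,
      mul_le_mul_of_nonneg_right hθ1 (mul_nonneg hℓ.le (by positivity : 0 ≤ 1 + L * √(3 / 5 * ε)))]
  · obtain ⟨d, hd⟩ := hp3
    refine ⟨u y + t * ℓ * d - t * ⟪A p, y⟫, fun z hz => ?_⟩
    have hz' : simInv y ℓ A z ∈ cyl 0 p θ (2 * L * √(ε / 2) * θ) := by
      have hz2 : z ∈ cyl y (t • A p) (θ * ℓ) (2 * L * √(ε / 2) * θ * ℓ) := by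
        refine ⟨hz.1, hz.2.trans (pow_le_pow_left₀ (by positivity) ?_ 2)⟩
        refine mul_le_mul_of_nonneg_right ?_ (norm_nonneg _)
        have : √(3 / 5 * ε) ≤ 2 * √(ε / 2) := by
          rw [Real.sqrt_le_iff]
          refine ⟨by positivity, ?_⟩
          rw [mul_pow, Real.sq_sqrt (by positivity)]
          linarith
        nlinarith [mul_le_mul_of_nonneg_left this (by positivity : 0 ≤ L * θ * ℓ)]
      rw [cyl_smul ht0] at hz2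
      rw [← simMap_simInv (x₀ := y) (A := A) hℓ.ne' z, ← Set.mem_preimage, preimage_cyl hℓ,
        A.symm_apply_apply, mul_div_assoc, div_self hℓ.ne', mul_one, mul_div_assoc,
        div_self hℓ.ne', mul_one] at hz2
      simpa [simInv] using hz2
    have := hd _ hz'
    rw [simFun_apply, simMap_simInv hℓ.ne'] at this
    have hip : ⟪p, simInv y ℓ A z⟫ = ℓ⁻¹ * (⟪A p, z⟫ - ⟪A p, y⟫) := by
      rw [← A.inner_map_map, simInv, A.apply_symm_apply, real_inner_smul_right, inner_sub_right]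
    rw [hip] at this
    rw [real_inner_smul_left, norm_smul, Real.norm_eq_abs, abs_of_pos ht0, A.norm_map]
    have key : u z - (u y + t * ℓ * d - t * ⟪A p, y⟫ + t * ⟪A p, z⟫) =
        t * ℓ * ((t * ℓ)⁻¹ * (u z - u y) - (d + ℓ⁻¹ * (⟪A p, z⟫ - ⟪A p, y⟫))) := by
      field_simp
      ring
    rw [key, abs_mul, abs_of_pos (mul_pos ht0 hℓ)]
    calc t * ℓ * |_| ≤ t * ℓ * (ε / 2 * θ) := mul_le_mul_of_nonneg_left this (by positivity)
      _ = t * (ε * θ * ℓ) * (1 / 2) := by ring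
      _ ≤ t * (ε * θ * ℓ) * (3 / 5 * ‖p‖) :=
          mul_le_mul_of_nonneg_left (by linarith) (by positivity)
      _ = 3 / 5 * ε * (θ * ℓ) * (t * ‖p‖) := by ring
  · have hqA : q = t • A (ee 2) := by rw [hA, smul_smul, mul_inv_cancel₀ ht0.ne', one_smul]
    conv_lhs => rw [hqA]
    rw [← smul_sub, ← map_sub, norm_smul, A.norm_map, Real.norm_eq_abs, abs_of_pos ht0]
    exact mul_le_mul_of_nonneg_left (by rwa [← dist_eq_norm]) ht0.le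

/-- The flatness inherited along the iteration: `q` stays close to the initial slope. -/
theorem Step.chain (hS : Step L θ₀ C ε₀) (hO : IsOpen O) (hu : IsInfHarmonicOn O u) {y q : E3}
    {ℓ ε : ℝ} (hε : 0 < ε) (hε₀ : ε ≤ ε₀) (hC : C * ε ≤ 1 / 6) (hC2 : 40 * C * √ε ≤ 1 / 4)
    (hq : ‖q‖ ∈ Set.Icc (3 / 4) (5 / 4)) (h : Flat O u L y q ℓ ε) :
    ∃ (qs : ℕ → E3) (ℓs : ℕ → ℝ), qs 0 = q ∧ ℓs 0 = ℓ ∧
      ∀ k, Flat O u L y (qs k) (ℓs k) ((3 / 5) ^ k * ε) ∧ θ₀ * ℓs k ≤ ℓs (k + 1) ∧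
        ℓs (k + 1) ≤ ℓs k / 2 ∧ ‖qs (k + 1) - qs k‖ ≤ 2 * C * √((3 / 5) ^ k * ε) ∧
        1 / 2 ≤ ‖qs k‖ ∧ ‖qs k‖ ≤ 3 / 2 := by
  have hC0 := hS.C_pos
  have hsε : ∀ k : ℕ, √((3 / 5) ^ k * ε) ≤ (4 / 5) ^ k * √ε := by
    intro k
    rw [Real.sqrt_le_iff]
    refine ⟨by positivity, ?_⟩
    rw [mul_pow, Real.sq_sqrt hε.le, ← pow_mul, mul_comm k 2, pow_mul]
    exact mul_le_mul_of_nonneg_right (pow_le_pow_left₀ (by norm_num) (by norm_num) k) hε.le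
  let P : ℕ → E3 × ℝ → Prop := fun k p => Flat O u L y p.1 p.2 ((3 / 5) ^ k * ε) ∧
    ‖p.1 - q‖ ≤ 10 * C * √ε * (1 - (4 / 5) ^ k)
  have hnorm : ∀ k p, P k p → 1 / 2 ≤ ‖p.1‖ ∧ ‖p.1‖ ≤ 3 / 2 := by
    intro k p hp
    have h1 : 10 * C * √ε * (1 - (4 / 5 : ℝ) ^ k) ≤ 10 * C * √ε :=
      mul_le_of_le_one_right (by positivity) (by linarith [pow_pos (by norm_num : (0:ℝ) < 4/5) k])
    have h2 := hp.2.trans h1
    have h3 := abs_norm_sub_norm_le p.1 q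
    constructor <;> linarith [abs_le.1 h3, hq.1, hq.2]
  have hstep : ∀ k p, P k p → ∃ p', P (k + 1) p' ∧ θ₀ * p.2 ≤ p'.2 ∧ p'.2 ≤ p.2 / 2 ∧
      ‖p'.1 - p.1‖ ≤ 2 * C * √((3 / 5) ^ k * ε) := by
    intro k p hp
    obtain ⟨h1, h2⟩ := hnorm k p hp
    have hεk : (3 / 5 : ℝ) ^ k * ε ≤ ε :=
      mul_le_of_le_one_left hε.le (pow_le_one₀ (by norm_num) (by norm_num))
    obtain ⟨q', ℓ', hf, hl1, hl2, hd⟩ := hS.next hO hu
      (norm_pos_iff.1 (by linarith : 0 < ‖p.1‖)) (by positivity) (hεk.trans hε₀)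
      (le_trans (mul_le_mul_of_nonneg_left hεk hC0.le) hC) hp.1
    have hd' : ‖q' - p.1‖ ≤ 2 * C * √((3 / 5) ^ k * ε) := by
      refine hd.trans ?_
      rw [← mul_assoc]
      exact mul_le_mul_of_nonneg_right (by nlinarith) (Real.sqrt_nonneg _)
    refine ⟨(q', ℓ'), ⟨?_, ?_⟩, hl1, hl2, hd'⟩
    · have e : (3 / 5 : ℝ) ^ (k + 1) * ε = 3 / 5 * ((3 / 5) ^ k * ε) := by ring
      rw [e]; exact hf
    · calc ‖q' - q‖ ≤ ‖q' - p.1‖ + ‖p.1 - q‖ := norm_sub_le_norm_sub_add_norm_sub ..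
        _ ≤ 2 * C * ((4 / 5) ^ k * √ε) + 10 * C * √ε * (1 - (4 / 5) ^ k) :=
          add_le_add (hd'.trans (mul_le_mul_of_nonneg_left (hsε k) (by positivity))) hp.2
        _ = 10 * C * √ε * (1 - (4 / 5) ^ (k + 1)) := by ring
  have h0 : P 0 (q, ℓ) := ⟨by simpa using h, by simp⟩
  choose! f hf using hstep
  let seq : ℕ → E3 × ℝ := fun k => Nat.rec (q, ℓ) (fun k p => f k p) k
  have hP : ∀ k, P k (seq k) := fun k => by
    induction k with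
    | zero => exact h0
    | succ k ih => exact (hf k _ ih).1
  exact ⟨fun k => (seq k).1, fun k => (seq k).2, rfl, rfl, fun k =>
    ⟨(hP k).1, (hf k _ (hP k)).2.1, (hf k _ (hP k)).2.2.1, (hf k _ (hP k)).2.2.2,
      hnorm k _ (hP k)⟩⟩

end Vale.Agent.P080C1.Iterate
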