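import Vale.Agent.P080C1.Iterate.Expansion

/-!
`C¹` regularity and the Hölder estimate for the gradient from the improvement of flatness, the
Lipschitz alternative and the local Lipschitz bound.
-/

noncomputable section

open Metric Filter Topology Set
open scoped RealInnerProductSpace NNReal

namespace Vale.Agent.P080C1.Iterate

theorem IsInfHarmonicOn.mono {O U : Set E3} {u : E3 → ℝ} (h : IsInfHarmonicOn O u)
    (hU : U ⊆ O) : IsInfHarmonicOn U u :=
  ⟨h.1.mono hU, fun φ z hz hφ => h.2 φ z (hU hz) hφ⟩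

/-- Flatness at one scale gives differentiability and a Hölder gradient on a smaller ball. -/
theorem flat_estimate (himp : ImproveProp) :
    ∃ τ β K c : ℝ, 0 < τ ∧ τ ≤ 1 / 4 ∧ 0 < β ∧ 0 < K ∧ 0 < c ∧ c ≤ 1 ∧
      ∀ (O : Set E3) (u : E3 → ℝ) (x₀ q : E3) (ρ : ℝ), IsOpen O → IsInfHarmonicOn O u → 0 < ρ →
        closedBall x₀ ρ ⊆ O → |‖q‖ - 1| ≤ τ → FlatOn u (closedBall x₀ ρ) q (τ * ρ) →
        ∀ y ∈ closedBall x₀ (c * ρ), ∀ y' ∈ closedBall x₀ (c * ρ),
          DifferentiableAt ℝ u y ∧ ‖fderiv ℝ u y - fderiv ℝ u y'‖ ≤ K * (‖y - y'‖ / ρ) ^ β := by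
  obtain ⟨L, θ₀, C, ε₀, hL, hθ, hθ', hC, hε, hstep⟩ := himp
  have hS : Step L θ₀ C ε₀ := ⟨hL, hθ, hθ', hC, hε, hstep⟩
  set ε : ℝ := min (min ε₀ (1 / (6 * C))) (min 1 ((1 / (160 * C)) ^ 2)) with hεdef
  have hε0 : 0 < ε := lt_min (lt_min hε (by positivity)) (lt_min one_pos (by positivity))
  have hε₀ : ε ≤ ε₀ := (min_le_left _ _).trans (min_le_left _ _)
  have hC1 : C * ε ≤ 1 / 6 := by
    have : ε ≤ 1 / (6 * C) := (min_le_left _ _).trans (min_le_right _ _)
    rw [le_div_iff₀ (by positivity)] at this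
    linarith
  have hs : √ε ≤ 1 / (160 * C) :=
    (Real.sqrt_le_left (by positivity)).2 ((min_le_right _ _).trans (min_le_right _ _))
  have hC2 : 40 * C * √ε ≤ 1 / 4 := by
    rw [le_div_iff₀ (by positivity)] at hs
    linarith
  have hs1 : √ε ≤ 1 := Real.sqrt_le_one.2 ((min_le_right _ _).trans (min_le_left _ _))
  obtain ⟨β, K, a, hβ, hK, ha, ha1, hexp⟩ := hS.expansion hε0 hε₀ hC1 hC2
  set b : ℝ := 1 / (2 * (1 + L)) with hb
  have hb0 : 0 < b := by positivity
  have hb1 : b * (1 + L) = 1 / 2 := by rw [hb]; field_simp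
  have hb2 : b ≤ 1 / 2 := by nlinarith
  refine ⟨min (1 / 4) (3 / 4 * (ε * b)), β, 4 * 2 ^ β * K * (1 / (a * b)) ^ β, a * b / 4,
    lt_min (by norm_num) (by positivity), min_le_left _ _, hβ, by positivity, by positivity,
    by nlinarith, fun O u x₀ q ρ hO hu hρ hball hq hflat => ?_⟩
  set ℓ : ℝ := b * ρ with hℓ
  have hℓ0 : 0 < ℓ := by positivity
  have hqI : ‖q‖ ∈ Set.Icc (3 / 4) (5 / 4) := by
    have := abs_le.1 (hq.trans (min_le_left _ _))
    constructor <;> linarith [this.1, this.2]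
  have key : ∀ y ∈ closedBall x₀ (a * b / 4 * ρ), ∃ p, Expan u y p K β (a * ℓ) := by
    intro y hy
    rw [mem_closedBall] at hy
    have hy2 : dist y x₀ ≤ ρ / 2 := hy.trans (by nlinarith [mul_le_mul ha1 hb2 hb0.le zero_le_one])
    have hin : closedBall y (ℓ * (1 + L * √ε)) ⊆ closedBall x₀ ρ := by
      refine closedBall_subset_closedBall' ?_
      have h1 : ℓ * (1 + L * √ε) ≤ ℓ * (1 + L) :=
        mul_le_mul_of_nonneg_left (by nlinarith) hℓ0.le
      have h2 : ℓ * (1 + L) = ρ / 2 := by rw [hℓ, mul_right_comm, hb1]; ring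
      linarith
    have hfl : Flat O u L y q ℓ ε := by
      refine ⟨hℓ0, hin.trans hball, hflat.mono ?_ ?_⟩
      · refine (cyl_subset_closedBall (norm_pos_iff.1 (by linarith [hqI.1])) hℓ0.le
          (by positivity)).trans ?_
        refine (closedBall_subset_closedBall (le_of_eq ?_)).trans hin
        ring
      · have h1 : min (1 / 4) (3 / 4 * (ε * b)) * ρ ≤ 3 / 4 * (ε * b) * ρ :=
          mul_le_mul_of_nonneg_right (min_le_right _ _) hρ.le
        refine h1.trans ?_
        rw [hℓ]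
        nlinarith [mul_le_mul_of_nonneg_left hqI.1 (by positivity : 0 ≤ ε * (b * ρ))]
    obtain ⟨p, -, hp⟩ := hexp O u y q ℓ hO hu hqI hfl
    exact ⟨p, hp⟩
  intro y hy y' hy'
  obtain ⟨p, hp⟩ := key y hy
  obtain ⟨p', hp'⟩ := key y' hy'
  have hr : 0 < a * ℓ := by positivity
  have h1 := hp.hasFDerivAt hβ hr
  refine ⟨h1.differentiableAt, ?_⟩
  rw [h1.fderiv, (hp'.hasFDerivAt hβ hr).fderiv, ← map_sub, innerSL_apply_norm, norm_sub_rev]
  rw [mem_closedBall] at hy hy'
  have hd : ‖y' - y‖ ≤ a * ℓ / 2 := by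
    rw [← dist_eq_norm, hℓ]
    calc dist y' y ≤ dist y' x₀ + dist y x₀ := dist_triangle_right ..
      _ ≤ a * (b * ρ) / 2 := by linarith
  refine (hp.dist_le hp' hK.le hβ hr hd).trans (le_of_eq ?_)
  rw [mul_assoc _ ((1 / (a * b)) ^ β), ← Real.mul_rpow (by positivity) (by positivity),
    norm_sub_rev y y', hℓ]
  congr 2
  field_simp

/-- The gradient estimate of a flat ball, for a slope of any size. -/
theorem flat_estimate_scaled (himp : ImproveProp) :
    ∃ τ β K c : ℝ, 0 < τ ∧ τ ≤ 1 / 4 ∧ 0 < β ∧ 0 < K ∧ 0 < c ∧ c ≤ 1 ∧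
      ∀ (O : Set E3) (u : E3 → ℝ) (x₀ q : E3) (ρ Λ : ℝ), IsOpen O → IsInfHarmonicOn O u → 0 < ρ →
        0 < Λ → closedBall x₀ ρ ⊆ O → |‖q‖ - Λ| ≤ τ * Λ →
        FlatOn u (closedBall x₀ ρ) q (τ * Λ * ρ) →
        ∀ y ∈ closedBall x₀ (c * ρ), ∀ y' ∈ closedBall x₀ (c * ρ),
          DifferentiableAt ℝ u y ∧
            ‖fderiv ℝ u y - fderiv ℝ u y'‖ ≤ K * Λ * (‖y - y'‖ / ρ) ^ β := by
  obtain ⟨τ, β, K, c, hτ, hτ', hβ, hK, hc, hc', h⟩ := flat_estimate himp
  refine ⟨τ, β, K, c, hτ, hτ', hβ, hK, hc, hc',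
    fun O u x₀ q ρ Λ hO hu hρ hΛ hball hq hflat y hy y' hy' => ?_⟩
  have hR1 : (0:ℝ) < 1 := one_pos
  set A : E3 ≃ₗᵢ[ℝ] E3 := LinearIsometryEquiv.refl ℝ E3 with hA
  have hT : ∀ z, simMap 0 1 A z = z := fun z => by simp [simMap, hA]
  have hpre : ∀ S : Set E3, simMap 0 1 A ⁻¹' S = S := fun S => by ext z; simp [hT]
  have hu' := hu.simFun hR1 hΛ 0 A 0
  have hf' := hflat.simFun hR1 hΛ 0 A 0
  simp only [hpre] at hu' hf'
  have hq' : |‖Λ⁻¹ • A.symm q‖ - 1| ≤ τ := by
    rw [norm_smul, A.symm.norm_map, norm_inv, Real.norm_eq_abs, abs_of_pos hΛ,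
      inv_mul_eq_div, div_sub_one hΛ.ne', abs_div, abs_of_pos hΛ, div_le_iff₀ hΛ]
    exact hq
  rw [show τ * Λ * ρ / (Λ * 1) = τ * ρ by field_simp] at hf'
  obtain ⟨hdiff, hb⟩ := h O _ x₀ _ ρ hO hu' hρ hball hq' hf' y hy y' hy'
  have hd' := (h O _ x₀ _ ρ hO hu' hρ hball hq' hf' y' hy' y hy).1
  rw [differentiableAt_simFun_iff one_ne_zero hΛ.ne', hT] at hdiff hd'
  refine ⟨hdiff, ?_⟩
  have e : ∀ z, DifferentiableAt ℝ u z →
      fderiv ℝ (simFun 0 1 A 0 Λ u) z = Λ⁻¹ • fderiv ℝ u z := by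
    intro z hz
    refine ContinuousLinearMap.ext fun v => ?_
    rw [fderiv_simFun_apply one_ne_zero (by rwa [hT]), hT]
    simp [hA]
  rw [e y hdiff, e y' hd', ← smul_sub, norm_smul, norm_inv, Real.norm_eq_abs, abs_of_pos hΛ,
    inv_mul_le_iff₀ hΛ] at hb
  linarith

/-- The alternative at a general point, scale and Lipschitz constant. -/
theorem alternative_scaled (halt : AlternativeProp) {τ : ℝ} (hτ : 0 < τ) :
    ∃ γ δ : ℝ, 0 < γ ∧ γ ≤ 1 / 2 ∧ 0 < δ ∧ δ < 1 ∧
      ∀ (u : E3 → ℝ) (x : E3) (r Λ : ℝ), 0 < r → 0 < Λ → IsInfHarmonicOn (ball x r) u →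
        (∀ a ∈ ball x r, ∀ b ∈ ball x r, |u a - u b| ≤ Λ * ‖a - b‖) →
        (∀ a ∈ ball x (γ * r), ∀ b ∈ ball x (γ * r), |u a - u b| ≤ (1 - δ) * Λ * ‖a - b‖) ∨
          ∃ q : E3, |‖q‖ - Λ| ≤ τ * Λ ∧
            FlatOn u (closedBall x (γ * r)) q (τ * Λ * (γ * r)) := by
  obtain ⟨ρ, δ, hρ, hρ1, hδ, hδ1, h⟩ := halt τ hτ
  refine ⟨ρ / 2, δ, by positivity, by linarith, hδ, hδ1, fun u x r Λ hr hΛ hu hlip => ?_⟩
  set A : E3 ≃ₗᵢ[ℝ] E3 := LinearIsometryEquiv.refl ℝ E3 with hA
  have hR : 0 < r / 2 := half_pos hr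
  have hT : ∀ z, simMap x (r / 2) A z = x + (r / 2) • z := fun z => by simp [simMap, hA]
  have hpre : simMap x (r / 2) A ⁻¹' ball x r = ball 0 2 := by
    ext z
    simp only [mem_preimage, hT, mem_ball, dist_eq_norm, add_sub_cancel_left, norm_smul,
      Real.norm_eq_abs, abs_of_pos hR, sub_zero]
    constructor <;> intro h <;> nlinarith
  set w : E3 → ℝ := simFun x (r / 2) A 0 Λ u with hw
  have hwu : IsInfHarmonicOn (ball 0 2) w := hpre ▸ hu.simFun hR hΛ x A 0
  have hwlip : LipschitzOnWith 1 w (ball 0 2) := by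
    refine LipschitzOnWith.of_dist_le_mul fun a ha b hb => ?_
    rw [← hpre] at ha hb
    have := hlip _ ha _ hb
    rw [hT, hT] at this
    rw [NNReal.coe_one, one_mul, Real.dist_eq, dist_eq_norm, hw, simFun_apply, simFun_apply, hT,
      hT, ← mul_sub, sub_zero, sub_zero, abs_mul, abs_of_pos (by positivity : 0 < (Λ * (r / 2))⁻¹),
      inv_mul_le_iff₀ (by positivity)]
    rw [show x + (r / 2) • a - (x + (r / 2) • b) = (r / 2) • (a - b) by rw [smul_sub]; abel,
      norm_smul, Real.norm_eq_abs, abs_of_pos hR] at this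
    linarith
  have hval : ∀ z, u z = Λ * (r / 2) * w (simInv x (r / 2) A z) := fun z => by
    rw [hw, simFun_apply, simMap_simInv hR.ne']
    field_simp
    ring
  have hinv : ∀ z, simInv x (r / 2) A z = (r / 2)⁻¹ • (z - x) := fun z => by
    rw [simInv, hA, LinearIsometryEquiv.symm_apply_eq]
    simp
  rcases h w hwu hwlip with hl | ⟨q, hq, hfl⟩
  · left
    intro a ha b hb
    have hm : ∀ z ∈ ball x (ρ / 2 * r), simInv x (r / 2) A z ∈ ball 0 ρ := fun z hz => by
      rw [mem_ball, dist_eq_norm] at hz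
      rw [mem_ball, dist_zero_right, hinv, norm_smul, norm_inv, Real.norm_eq_abs, abs_of_pos hR,
        inv_mul_lt_iff₀ hR]
      linarith
    have := hl.dist_le_mul _ (hm a ha) _ (hm b hb)
    rw [Real.coe_toNNReal _ (by linarith), Real.dist_eq, dist_eq_norm, hinv a, hinv b, ← smul_sub,
      sub_sub_sub_cancel_right, norm_smul, norm_inv, Real.norm_eq_abs, abs_of_pos hR] at this
    rw [hval a, hval b, ← mul_sub, abs_mul, abs_of_pos (mul_pos hΛ hR), hinv a, hinv b]
    refine (mul_le_mul_of_nonneg_left this (mul_pos hΛ hR).le).trans (le_of_eq ?_)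
    field_simp
  · right
    obtain ⟨d, hd⟩ := hfl
    refine ⟨Λ • q, ?_, Λ * (r / 2) * d - Λ * ⟪q, x⟫, fun z hz => ?_⟩
    · rw [norm_smul, Real.norm_eq_abs, abs_of_pos hΛ, ← mul_sub_one, abs_mul, abs_of_pos hΛ,
        mul_comm τ]
      exact mul_le_mul_of_nonneg_left hq hΛ.le
    · have hm : simInv x (r / 2) A z ∈ closedBall 0 ρ := by
        rw [mem_closedBall, dist_eq_norm] at hz
        rw [mem_closedBall, dist_zero_right, hinv, norm_smul, norm_inv, Real.norm_eq_abs,
          abs_of_pos hR, inv_mul_le_iff₀ hR]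
        linarith
      have := hd _ hm
      rw [hinv, real_inner_smul_right, inner_sub_right] at this
      rw [hval, hinv, real_inner_smul_left]
      have key : Λ * (r / 2) * w ((r / 2)⁻¹ • (z - x)) -
          (Λ * (r / 2) * d - Λ * ⟪q, x⟫ + Λ * ⟪q, z⟫) =
          Λ * (r / 2) *
            (w ((r / 2)⁻¹ • (z - x)) - (d + (r / 2)⁻¹ * (⟪q, z⟫ - ⟪q, x⟫))) := by
        field_simp
        ring
      rw [key, abs_mul, abs_of_pos (mul_pos hΛ hR)]
      refine (mul_le_mul_of_nonneg_left this (mul_pos hΛ hR).le).trans (le_of_eq ?_)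
      ring


theorem norm_fderiv_le_of_ball {u : E3 → ℝ} {y z : E3} {r Λ : ℝ} (hΛ : 0 ≤ Λ) (hz : z ∈ ball y r)
    (hlip : ∀ a ∈ ball y r, ∀ b ∈ ball y r, |u a - u b| ≤ Λ * ‖a - b‖) :
    ‖fderiv ℝ u z‖ ≤ Λ := by
  have h : LipschitzOnWith ⟨Λ, hΛ⟩ u (ball y r) :=
    LipschitzOnWith.of_dist_le_mul fun a ha b hb => by
      rw [Real.dist_eq, dist_eq_norm]; exact hlip a ha b hb
  exact norm_fderiv_le_of_lipschitzOn ℝ (isOpen_ball.mem_nhds hz) h

/-- Differentiability at the centre and Hölder continuity of the gradient there. -/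
theorem centre_estimate (himp : ImproveProp) (halt : AlternativeProp) :
    ∃ α K : ℝ, 0 < α ∧ 0 < K ∧
      ∀ (u : E3 → ℝ) (y : E3) (r Λ : ℝ), 0 < r → 0 < Λ → IsInfHarmonicOn (ball y r) u →
        (∀ a ∈ ball y r, ∀ b ∈ ball y r, |u a - u b| ≤ Λ * ‖a - b‖) →
        DifferentiableAt ℝ u y ∧
          ∀ y' ∈ ball y r, ‖fderiv ℝ u y - fderiv ℝ u y'‖ ≤ K * Λ * (‖y - y'‖ / r) ^ α := by
  obtain ⟨τ, β, K, c, hτ, -, hβ, hK, hc, hc1, hflat⟩ := flat_estimate_scaled himp
  obtain ⟨γ, δ, hγ, hγ2, hδ, hδ1, halt'⟩ := alternative_scaled halt hτ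
  set μ : ℝ := 1 - δ with hμ
  have hμ0 : 0 < μ := by linarith
  have hμ1 : μ < 1 := by linarith
  have hγ1 : γ < 1 := by linarith
  have hlγ : Real.log γ < 0 := Real.log_neg hγ hγ1
  set α : ℝ := min β (Real.log μ / Real.log γ) with hα
  have hα0 : 0 < α := lt_min hβ (div_pos_of_neg_of_neg (Real.log_neg hμ0 hμ1) hlγ)
  have hμγ : μ ≤ γ ^ α := by
    have h1 : γ ^ (Real.log μ / Real.log γ) = μ := by
      rw [Real.rpow_def_of_pos hγ, mul_div_cancel₀ _ hlγ.ne, Real.exp_log hμ0]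
    rw [← h1]
    exact Real.rpow_le_rpow_of_exponent_ge hγ hγ1.le (min_le_right _ _)
  have hμk : ∀ k : ℕ, μ ^ k ≤ (γ ^ k) ^ α := fun k => by
    refine (pow_le_pow_left₀ hμ0.le hμγ k).trans (le_of_eq ?_)
    rw [← Real.rpow_natCast, ← Real.rpow_mul hγ.le, mul_comm, Real.rpow_mul hγ.le,
      Real.rpow_natCast]
  set c' : ℝ := c / 2 with hc'
  have hc0 : 0 < c' := by positivity
  have hc'1 : c' < 1 := by linarith
  have hq0 : 0 < c' * γ := by positivity
  refine ⟨α, max K 2 * (1 / (c' * γ)) ^ α, hα0, by positivity,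
    fun u y r Λ hr hΛ hu hlip => ?_⟩
  let reach : ℕ → Prop := fun k => ∀ a ∈ ball y (γ ^ k * r), ∀ b ∈ ball y (γ ^ k * r),
    |u a - u b| ≤ μ ^ k * Λ * ‖a - b‖
  let flatAt : ℕ → Prop := fun k => ∀ z ∈ closedBall y (c * (γ ^ (k + 1) * r)),
    ∀ z' ∈ closedBall y (c * (γ ^ (k + 1) * r)), DifferentiableAt ℝ u z ∧
      ‖fderiv ℝ u z - fderiv ℝ u z'‖ ≤
        K * (μ ^ k * Λ) * (‖z - z'‖ / (γ ^ (k + 1) * r)) ^ β
  have hP : ∀ k, reach k ∨ ∃ j < k, flatAt j := by
    intro k
    induction k with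
    | zero => left; simpa [reach] using hlip
    | succ k ih =>
      rcases ih with h | ⟨j, hj, h⟩
      swap
      · exact Or.inr ⟨j, hj.trans (Nat.lt_succ_self k), h⟩
      have hrk : 0 < γ ^ k * r := by positivity
      have hsub : ball y (γ ^ k * r) ⊆ ball y r :=
        ball_subset_ball (mul_le_of_le_one_left hr.le (pow_le_one₀ hγ.le hγ1.le))
      have e : γ * (γ ^ k * r) = γ ^ (k + 1) * r := by ring
      rcases halt' u y _ _ hrk (by positivity) (IsInfHarmonicOn.mono hu hsub) h with h' | ⟨q, hq, hf⟩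
      · left
        intro a ha b hb
        rw [← e] at ha hb
        refine (h' a ha b hb).trans (le_of_eq ?_)
        rw [pow_succ, hμ]; ring
      · refine Or.inr ⟨k, Nat.lt_succ_self k, ?_⟩
        rw [e] at hf
        refine hflat (ball y r) u y q _ _ isOpen_ball hu (by positivity) (by positivity)
          ((closedBall_subset_ball ?_).trans subset_rfl) hq hf
        exact mul_lt_of_lt_one_left hr (pow_lt_one₀ hγ.le hγ1 k.succ_ne_zero)
  refine ⟨?_, fun y' hy' => ?_⟩
  · by_cases hall : ∀ k, reach k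
    · refine HasFDerivAt.differentiableAt (f' := 0) ?_
      rw [hasFDerivAt_iff_isLittleO, Asymptotics.isLittleO_iff]
      intro e he
      obtain ⟨k, hk⟩ := exists_pow_lt_of_lt_one (div_pos he hΛ) hμ1
      have hrk : 0 < γ ^ k * r := by positivity
      filter_upwards [ball_mem_nhds y hrk] with z hz
      rw [zero_apply, sub_zero, Real.norm_eq_abs]
      refine (hall k z hz y (mem_ball_self hrk)).trans
        (mul_le_mul_of_nonneg_right ?_ (norm_nonneg _))
      rw [lt_div_iff₀ hΛ] at hk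
      exact hk.le
    · push Not at hall
      obtain ⟨k, hk⟩ := hall
      obtain ⟨j, -, hj⟩ := (hP k).resolve_left hk
      exact (hj y (mem_closedBall_self (by positivity)) y (mem_closedBall_self (by positivity))).1
  · set d : ℝ := ‖y - y'‖ with hd
    have hd0 : 0 ≤ d := norm_nonneg _
    have hdr : d < r := by rw [hd, ← dist_eq_norm, dist_comm]; exact hy'
    have hfin : ∀ B : ℝ, B ≤ max K 2 * Λ * (d / (c' * γ * r)) ^ α →
        B ≤ max K 2 * (1 / (c' * γ)) ^ α * Λ * (d / r) ^ α := by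
      intro B hB
      refine hB.trans (le_of_eq ?_)
      rw [mul_right_comm _ _ Λ, mul_assoc _ ((1 / (c' * γ)) ^ α),
        ← Real.mul_rpow (by positivity) (by positivity)]
      congr 2
      field_simp
    rcases eq_or_lt_of_le hd0 with h0 | h0
    · have : y = y' := sub_eq_zero.1 (norm_eq_zero.1 (hd ▸ h0.symm))
      subst this
      simp only [sub_self, norm_zero]
      positivity
    refine hfin _ ?_
    rcases lt_or_ge (c' * γ * r) d with hbig | hsmall
    · refine (norm_sub_le _ _).trans ?_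
      have h1 := norm_fderiv_le_of_ball hΛ.le (mem_ball_self hr) hlip
      have h2 := norm_fderiv_le_of_ball hΛ.le hy' hlip
      have h3 : 1 ≤ (d / (c' * γ * r)) ^ α :=
        Real.one_le_rpow (by rw [le_div_iff₀ (by positivity), one_mul]; exact hbig.le) hα0.le
      calc ‖fderiv ℝ u y‖ + ‖fderiv ℝ u y'‖ ≤ 2 * Λ * 1 := by linarith
        _ ≤ _ := mul_le_mul (mul_le_mul_of_nonneg_right (le_max_right _ _) hΛ.le) h3 zero_le_one
          (by positivity)
    obtain ⟨n, hn1, hn2⟩ := exists_bracket (m := fun k => c' * γ * r * γ ^ k)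
      (by simpa using (tendsto_pow_atTop_nhds_zero_of_lt_one hγ.le hγ1).const_mul (c' * γ * r))
      h0 (by simpa using hsmall)
    rcases hP (n + 1) with h | ⟨j, hj, h⟩
    · have hmem : y' ∈ ball y (γ ^ (n + 1) * r) := by
        rw [mem_ball, dist_comm, dist_eq_norm, ← hd]
        refine hn1.trans_lt ?_
        have : 0 < γ ^ (n + 1) * r := by positivity
        calc c' * γ * r * γ ^ n = c' * (γ ^ (n + 1) * r) := by ring
          _ < 1 * (γ ^ (n + 1) * r) := mul_lt_mul_of_pos_right hc'1 this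
          _ = _ := one_mul _
      have hnn : 0 ≤ μ ^ (n + 1) * Λ := by positivity
      refine (norm_sub_le _ _).trans ((add_le_add
        (norm_fderiv_le_of_ball hnn (mem_ball_self (by positivity)) h)
        (norm_fderiv_le_of_ball hnn hmem h)).trans ?_)
      have hle : γ ^ (n + 1) ≤ d / (c' * γ * r) := by
        rw [le_div_iff₀ (by positivity)]
        linarith
      calc μ ^ (n + 1) * Λ + μ ^ (n + 1) * Λ = 2 * Λ * μ ^ (n + 1) := by ring
        _ ≤ _ := mul_le_mul (mul_le_mul_of_nonneg_right (le_max_right _ _) hΛ.le)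
          ((hμk _).trans (Real.rpow_le_rpow (by positivity) hle hα0.le)) (by positivity)
          (by positivity)
    · have hpos : 0 < γ ^ (j + 1) * r := by positivity
      have hdj : d ≤ c * (γ ^ (j + 1) * r) := by
        refine hn1.trans ?_
        calc c' * γ * r * γ ^ n ≤ c' * γ * r * γ ^ j :=
              mul_le_mul_of_nonneg_left (pow_le_pow_of_le_one hγ.le hγ1.le (by omega))
                (by positivity)
          _ = c' * (γ ^ (j + 1) * r) := by ring
          _ ≤ _ := mul_le_mul_of_nonneg_right (by linarith) hpos.le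
      refine (h y (mem_closedBall_self (by positivity)) y'
        (by rw [mem_closedBall, dist_comm, dist_eq_norm]; exact hdj)).2.trans ?_
      have hd1 : d / (γ ^ (j + 1) * r) ≤ 1 := by
        rw [div_le_one hpos]; exact hdj.trans (mul_le_of_le_one_left hpos.le hc1)
      have h1 : (d / (γ ^ (j + 1) * r)) ^ β ≤ (d / (γ ^ (j + 1) * r)) ^ α :=
        Real.rpow_le_rpow_of_exponent_ge (by positivity) hd1 (min_le_left _ _)
      have h2 : μ ^ j * (d / (γ ^ (j + 1) * r)) ^ β ≤ (d / (c' * γ * r)) ^ α := by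
        refine (mul_le_mul (hμk j) h1 (by positivity) (by positivity)).trans ?_
        rw [← Real.mul_rpow (by positivity) (by positivity)]
        refine Real.rpow_le_rpow (by positivity) (le_of_eq_of_le (by field_simp; ring :
          γ ^ j * (d / (γ ^ (j + 1) * r)) = d / (γ * r)) ?_) hα0.le
        gcongr
        exact mul_le_of_le_one_left hγ.le hc'1.le
      calc K * (μ ^ j * Λ) * (d / (γ ^ (j + 1) * r)) ^ β
          = K * Λ * (μ ^ j * (d / (γ ^ (j + 1) * r)) ^ β) := by ring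
        _ ≤ _ := mul_le_mul (mul_le_mul_of_nonneg_right (le_max_left _ _) hΛ.le) h2 (by positivity)
          (by positivity)

/-- The regularity theorem from the improvement of flatness, the alternative and the Lipschitz
bound. -/
theorem main_of (himp : ImproveProp) (halt : AlternativeProp) (hlip : LipBoundProp) :
    MainProp := by
  obtain ⟨α, K, hα, hK, hcen⟩ := centre_estimate himp halt
  obtain ⟨C, hC, hL⟩ := hlip
  set Q : ℝ := (2 : ℝ) ^ α with hQ
  have hQ0 : 0 < Q := by positivity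
  refine ⟨α, max (K * C * Q) (4 * C * Q) , hα, lt_max_of_lt_left (by positivity),
    fun O u hO hu => ?_⟩
  have hlipball : ∀ (x : E3) (r M : ℝ), 0 < r → closedBall x (2 * r) ⊆ O →
      (∀ a ∈ closedBall x (2 * r), ∀ b ∈ closedBall x (2 * r), u a - u b ≤ M) →
      ∀ e > 0, ∀ a ∈ closedBall x (3 / 2 * r), ∀ b ∈ closedBall x (3 / 2 * r),
        |u a - u b| ≤ (C * M / r + e) * ‖a - b‖ := fun x r M hr hb hM e he a ha b hb' =>
    (hL O u x r M hO hu hr hb hM a ha b hb').trans
      (mul_le_mul_of_nonneg_right (by linarith) (norm_nonneg _))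
  have hest : ∀ (x : E3) (r M : ℝ), 0 < r → closedBall x (2 * r) ⊆ O →
      (∀ a ∈ closedBall x (2 * r), ∀ b ∈ closedBall x (2 * r), u a - u b ≤ M) →
      ∀ y ∈ closedBall x r, DifferentiableAt ℝ u y ∧ ∀ y' ∈ closedBall x r,
        ‖fderiv ℝ u y - fderiv ℝ u y'‖ ≤
          max (K * C * Q) (4 * C * Q) * (M / r) * (‖y - y'‖ / r) ^ α := by
    intro x r M hr hb hM y hy
    have hM0 : 0 ≤ M := by
      simpa using hM x (mem_closedBall_self (by positivity)) x (mem_closedBall_self (by positivity))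
    have hsub : ∀ z ∈ closedBall x r, ball z (r / 2) ⊆ closedBall x (3 / 2 * r) := fun z hz =>
      ball_subset_closedBall.trans (closedBall_subset_closedBall' (by
        rw [mem_closedBall] at hz; linarith))
    have hz : ∀ z ∈ closedBall x r, ∀ e > 0, DifferentiableAt ℝ u z ∧ ∀ z' ∈ ball z (r / 2),
        ‖fderiv ℝ u z - fderiv ℝ u z'‖ ≤
          K * (C * M / r + e) * (‖z - z'‖ / (r / 2)) ^ α := fun z hz e he =>
      hcen u z (r / 2) _ (by positivity) (by positivity)
        (IsInfHarmonicOn.mono hu (((hsub z hz).trans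
          (closedBall_subset_closedBall (by linarith))).trans hb))
        fun a ha b hb' => hlipball x r M hr hb hM e he a (hsub z hz ha) b (hsub z hz hb')
    refine ⟨(hz y hy 1 one_pos).1, fun y' hy' => ?_⟩
    have hpow : (‖y - y'‖ / (r / 2)) ^ α = Q * (‖y - y'‖ / r) ^ α := by
      rw [hQ, ← Real.mul_rpow (by positivity) (by positivity)]
      congr 1
      field_simp
    rcases lt_or_ge (‖y - y'‖) (r / 2) with hd | hd
    · have h0 : ‖fderiv ℝ u y - fderiv ℝ u y'‖ ≤
          K * (C * M / r) * (‖y - y'‖ / (r / 2)) ^ α := by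
        have hlim : Tendsto (fun e => K * (C * M / r + e) * (‖y - y'‖ / (r / 2)) ^ α) (𝓝[>] 0)
            (𝓝 (K * (C * M / r) * (‖y - y'‖ / (r / 2)) ^ α)) := by
          refine Tendsto.mono_left ?_ nhdsWithin_le_nhds
          have hc : Continuous
              (fun e => K * (C * M / r + e) * (‖y - y'‖ / (r / 2)) ^ α) := by fun_prop
          simpa using hc.tendsto 0
        refine ge_of_tendsto hlim ?_
        filter_upwards [self_mem_nhdsWithin] with e he
        exact (hz y hy e he).2 y' (by rwa [mem_ball, dist_comm, dist_eq_norm])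
      refine h0.trans ?_
      rw [hpow]
      calc K * (C * M / r) * (Q * (‖y - y'‖ / r) ^ α)
          = K * C * Q * (M / r) * (‖y - y'‖ / r) ^ α := by ring
        _ ≤ _ := mul_le_mul_of_nonneg_right
          (mul_le_mul_of_nonneg_right (le_max_left _ _) (by positivity)) (by positivity)
    · have hb1 : ∀ z ∈ closedBall x r, ‖fderiv ℝ u z‖ ≤ C * M / r := fun z hz' =>
        le_of_forall_pos_le_add fun e he =>
          norm_fderiv_le_of_ball (by positivity) (mem_ball_self (half_pos hr))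
            fun a ha b hb' => hlipball x r M hr hb hM e he a (hsub z hz' ha) b (hsub z hz' hb')
      refine (norm_sub_le _ _).trans ((add_le_add (hb1 y hy) (hb1 y' hy')).trans ?_)
      have h1 : 1 ≤ Q * (‖y - y'‖ / r) ^ α := by
        rw [← hpow]
        exact Real.one_le_rpow (by rw [le_div_iff₀ (by positivity)]; linarith) hα.le
      calc C * M / r + C * M / r = 2 * C * (M / r) * 1 := by ring
        _ ≤ 2 * C * (M / r) * (Q * (‖y - y'‖ / r) ^ α) :=
            mul_le_mul_of_nonneg_left h1 (by positivity)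
        _ = 2 * C * Q * (M / r) * (‖y - y'‖ / r) ^ α := by ring
        _ ≤ _ := mul_le_mul_of_nonneg_right (mul_le_mul_of_nonneg_right
          ((by nlinarith [mul_pos hC hQ0] : 2 * C * Q ≤ 4 * C * Q).trans (le_max_right _ _))
          (by positivity)) (by positivity)
  refine ⟨fun x hx => ?_, fun x r M hr hb hM y hy y' hy' => (hest x r M hr hb hM y hy).2 y' hy'⟩
  obtain ⟨ρ, hρ, hρO⟩ := nhds_basis_closedBall.mem_iff.1 (hO.mem_nhds hx)
  have hr : 0 < ρ / 2 := half_pos hρ
  have hb : closedBall x (2 * (ρ / 2)) ⊆ O := by rwa [mul_div_cancel₀ _ two_ne_zero]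
  obtain ⟨B, hB⟩ := (isCompact_closedBall x (2 * (ρ / 2))).exists_bound_of_continuousOn
    (hu.1.mono hb)
  have hM : ∀ a ∈ closedBall x (2 * (ρ / 2)), ∀ b ∈ closedBall x (2 * (ρ / 2)),
      u a - u b ≤ 2 * B := fun a ha b hb' => by
    have h1 := hB a ha
    have h2 := hB b hb'
    rw [Real.norm_eq_abs, abs_le] at h1 h2
    linarith
  have hh := hest x (ρ / 2) (2 * B) hr hb hM
  refine ContDiffAt.contDiffWithinAt ?_
  refine contDiffAt_one_iff.2 ⟨fderiv ℝ u, ball x (ρ / 2), ball_mem_nhds x hr, fun z hz => ?_,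
    fun z hz => ((hh z (ball_subset_closedBall hz)).1).hasFDerivAt⟩
  rw [ContinuousWithinAt, tendsto_iff_dist_tendsto_zero]
  have hlim : Tendsto (fun z' => max (K * C * Q) (4 * C * Q) * (2 * B / (ρ / 2)) *
      (‖z - z'‖ / (ρ / 2)) ^ α) (𝓝[ball x (ρ / 2)] z) (𝓝 0) := by
    refine Tendsto.mono_left ?_ nhdsWithin_le_nhds
    have hc : Continuous (fun z' => max (K * C * Q) (4 * C * Q) * (2 * B / (ρ / 2)) *
        (‖z - z'‖ / (ρ / 2)) ^ α) :=
      continuous_const.mul ((((continuous_const.sub continuous_id).norm).div_const _).rpow_const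
        fun _ => Or.inr hα.le)
    simpa [Real.zero_rpow hα.ne'] using hc.tendsto z
  refine squeeze_zero' (Eventually.of_forall fun _ => dist_nonneg) ?_ hlim
  filter_upwards [self_mem_nhdsWithin] with z' hz'
  rw [dist_comm, dist_eq_norm]
  exact (hh z (ball_subset_closedBall hz)).2 z' (ball_subset_closedBall hz')

end Vale.Agent.P080C1.Iterate
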